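import Vale.Agent.P148M96.Main
import Vale.Agent.P148M96.Ori
import Vale.Agent.P148.R2.H566.Final

/-!
# P148: Cardy's formula for Poisson points whose cells are coloured by independent fair coins
-/

open MeasureTheory Set Metric Topology Filter ProbabilityTheory
open scoped ENNReal NNReal

namespace Vale.Agent.Results.P148.AALiteral

open _root_.P148 (JQuad cardy)
open Vale.Agent.P148M96

universe u

/-- (1) The model exists. (2) A quad has a uniformizer if and only if it is counterclockwise; every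
quad, or the quad with the marked points in the reversed order (which has the same crossing event),
is counterclockwise. (3) Every Poisson process has a measurable
list of its points, and the crossing events are measurable up to null sets. (4) Cardy's formula:
the limit of the crossing probabilities, annealed, and in `L¹` for the conditional probability given
the points. -/
theorem result :
    (∀ lam : ℝ≥0, 0 < lam → ∃ (Ω : Type u) (_ : MeasurableSpace Ω) (P : Measure Ω)
      (_ : IsProbabilityMeasure P) (η : Ω → Set ℂ) (col : Ω → ℂ → Bool) (X : ℕ → Ω → ℂ),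
      IsPoisson P η lam ∧ IsColouring P η col X) ∧
    (∀ Q : JQuad, (Ccw Q ↔ ∃ φ x, Q.IsUniformizer φ x) ∧ (Ccw Q ∨ Ccw Q.rev) ∧
      ∀ R, Q.rev.Cross 0 2 R ↔ Q.Cross 0 2 R) ∧
    (∀ (Ω : Type u) [m : MeasurableSpace Ω] (P : Measure Ω) [IsProbabilityMeasure P]
      (η : Ω → Set ℂ) (lam : ℝ≥0), 0 < lam → IsPoisson P η lam → sigmaOf η ≤ m ∧
      (∃ X : ℕ → Ω → ℂ, (∀ i, Measurable[sigmaOf η] (X i)) ∧
        (∀ ω, Function.Injective fun i => X i ω) ∧ ∀ᵐ ω ∂P, (range fun i => X i ω) = η ω) ∧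
      ∀ col X, IsColouring P η col X →
        ∀ Q : JQuad, NullMeasurableSet {ω | Q.Cross 0 2 (black (η ω) (col ω))} P) ∧
    ∀ (Q : JQuad) (φ : ℂ → ℂ) (x : ℝ), Q.IsUniformizer φ x → (0 < x ∧ x < 1) ∧
      ∀ (Ω : ℝ → Type u) [∀ ε, MeasurableSpace (Ω ε)] (P : ∀ ε, Measure (Ω ε))
        [∀ ε, IsProbabilityMeasure (P ε)] (η : ∀ ε, Ω ε → Set ℂ) (col : ∀ ε, Ω ε → ℂ → Bool),
        (∀ ε > 0, IsPoisson (P ε) (η ε) (Real.toNNReal (ε ^ (-2 : ℤ))) ∧
          ∃ X, IsColouring (P ε) (η ε) (col ε) X) →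
        Tendsto (fun ε => (P ε {ω | Q.Cross 0 2 (black (η ε ω) (col ε ω))}).toReal) (𝓝[>] 0)
          (𝓝 (cardy x)) ∧
        Tendsto (fun ε => ∫ ω, |((P ε)[{ω | Q.Cross 0 2 (black (η ε ω) (col ε ω))}.indicator
          (fun _ => (1 : ℝ)) | sigmaOf (η ε)]) ω - cardy x| ∂(P ε)) (𝓝[>] 0) (𝓝 0) := by
  obtain ⟨h1, h2, h3, h4⟩ := main_of.{u} (Vale.Agent.P148.R2.H771.finalJ_of
    (Vale.Agent.P148.R2.F.final_of Vale.Agent.P148.R2.H566.meu))
  exact ⟨h1, fun Q => ⟨(ccw_iff (h2 Q).2).1, (ccw_iff (h2 Q).2).2, (h2 Q).1⟩,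
    fun Ω m P _ η lam a b => ⟨(h3 Ω P η lam a b).1, (h3 Ω P η lam a b).2.1,
      fun col X k => ((h3 Ω P η lam a b).2.2 col X k).2⟩, h4⟩

end Vale.Agent.Results.P148.AALiteral
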